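import Vale.Agent.P273.H221.Final

/-!
# P273S, row CELL: the relation between the cell integrals of an arbitrary wall

For every wall `X : H95.Ext` (no closed form on families is needed) and every function `G` on graphs
that is invariant under isomorphisms and is the sum of the cell integrals of `X` on the theta
graphs, the combination of the values of `G` with the coefficients `xa` is zero.
-/

noncomputable section

namespace Vale.Agent.P273SC

open Set Filter MeasureTheory Vale.Agent.P273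
open Vale.Agent.P273.H681 Vale.Agent.P273.H95 Vale.Agent.P273.H732 Vale.Agent.P273.H973
  Vale.Agent.P273.H562 Vale.Agent.P273.H573
open scoped Topology

/-- The sum of the integrals of the wall `X` over the cells of the stratum of `thE e p q σ`. -/
def cellSum (X : H95.Ext) {p q : ℕ} (hp : p ≤ q) (hq : q ≤ 6) (σ : Bool → Equiv.Perm (Fin 7))
    (e : Bool → Bool) : ℝ :=
  ∑ c : H728.Cell with c.Ok (H728.sm e), ∫ ζ in H728.D0.Om (H728.sm e) c, H728.val X hp hq σ e c ζ

theorem pieces_eq (X : H95.Ext) {p q : ℕ} (hp : p ≤ q) (hq : q ≤ 6)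
    (σ : Bool → Equiv.Perm (Fin 7)) (e : Bool → Bool) :
    ∑ c : H93.Cell with H93.Nf e c.2.1 c.2.2,
      ∑ far : (H728.rg (H93.enc c.1 c.2.2 hp hq σ e c.2.1)).Cm → Bool,
        piece (H728.rg (H93.enc c.1 c.2.2 hp hq σ e c.2.1)) X far
          (gB (H93.enc c.1 c.2.2 hp hq σ e c.2.1)) = cellSum X hp hq σ e := by
  rw [H92.sum_pieces, cellSum]
  symm
  refine Finset.sum_subtype _ (fun c => ?_) _
  simp only [Finset.mem_filter, Finset.mem_univ, true_and]

theorem sum_valueG {z : H221.Cert H213.sV} (hz : H221.CertOK z) {X : H95.Ext} {G : H93.Gr → ℝ}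
    (h0 : ValZero) (hT : ValTP) (hA : ValAP)
    (hP : ∀ (p q : ℕ) (hp : p ≤ q) (hq : q ≤ 6) (σ : Bool → Equiv.Perm (Fin 7)) (e : Bool → Bool),
      G (H93.thE e p q σ) = cellSum X hp hq σ e) :
    ∑ Q, H573.val z X Q = KL * ∑ q ∈ Finset.range 7, ∑ p ∈ Finset.range (q + 1), H25.CC z p q *
        H93.DS p q G := by
  have h := H93.sum_val (H573.val z X) (fun p q => KL * H25.CC z p q) G
    (fun p q σ e c => if hp : p ≤ q then if hq : q ≤ 6 then
      ∑ far : (H728.rg (H93.enc c.1 c.2.2 hp hq σ e c.2.1)).Cm → Bool,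
        piece (H728.rg (H93.enc c.1 c.2.2 hp hq σ e c.2.1)) X far
          (gB (H93.enc c.1 c.2.2 hp hq σ e c.2.1)) else 0 else 0) ?_ ?_ ?_
  · rw [h, Finset.mul_sum]
    refine Finset.sum_congr rfl fun q _ => ?_
    rw [Finset.mul_sum]
    exact Finset.sum_congr rfl fun p _ => by ring
  · intro Q hQ
    by_cases h9 : ∑ k, (Q.B k).card = 9
    · have hz := h0 Q hQ h9
      have t : ∀ w i j, valT X (H503.mtV w) i j Q = 0 := by
        intro w i j
        unfold valT
        rw [if_pos h9, Finset.sum_eq_zero]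
        intro far _
        rw [(hz _ (H503.symT_mtV w)).1 i j, zero_mul]
      have a : ∀ w i, valA X (H503.mtV w) i Q = 0 := by
        intro w i
        unfold valA
        rw [if_pos h9, Finset.sum_eq_zero]
        intro far _
        rw [(hz _ (H503.symT_mtV w)).2 i, zero_mul]
      unfold H573.val
      rw [t, t, t, a, a, a]
      ring
    · unfold H573.val valT valA
      simp only [if_neg h9]
      ring
  · intro p q hp hq σ e c hc
    have h9 := good_card (H93.enc_good (f := c.1) (o := c.2.2) (loc := c.2.1) (e := e) hp hq σ)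
    have t : ∀ (w : H213.VV), H254.PlV w → ∀ (i j : Fin 3), i < j →
        valT X (H503.mtV w) i j (H93.enc c.1 c.2.2 hp hq σ e c.2.1) =
        KL * H25.torC i j w ![p, q - p, 6 - q] * ((H93.sgn σ : ℝ) * H93.sge e) *
        ∑ far : (H728.rg (H93.enc c.1 c.2.2 hp hq σ e c.2.1)).Cm → Bool,
        piece (H728.rg (H93.enc c.1 c.2.2 hp hq σ e c.2.1)) X far
          (gB (H93.enc c.1 c.2.2 hp hq σ e c.2.1)) := by
      intro w hw i j hij
      unfold valT
      rw [if_pos h9, Finset.mul_sum]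
      refine Finset.sum_congr rfl fun far _ => ?_
      rw [hT p q hp hq σ e c hc w hw i j hij]
    have a : ∀ (v : H213.VV), H254.PlV v → ∀ (i : Fin 3),
        valA X (H503.mtV v) i (H93.enc c.1 c.2.2 hp hq σ e c.2.1) =
        KL * H25.annC i v ![p, q - p, 6 - q] * ((H93.sgn σ : ℝ) * H93.sge e) *
        ∑ far : (H728.rg (H93.enc c.1 c.2.2 hp hq σ e c.2.1)).Cm → Bool,
        piece (H728.rg (H93.enc c.1 c.2.2 hp hq σ e c.2.1)) X far
          (gB (H93.enc c.1 c.2.2 hp hq σ e c.2.1)) := by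
      intro v hv i
      unfold valA
      rw [if_pos h9, Finset.mul_sum]
      refine Finset.sum_congr rfl fun far _ => ?_
      rw [hA p q hp hq σ e c hc v hv i]
    simp only [dif_pos hp, dif_pos hq]
    unfold H573.val
    rw [t _ hz.pl13 _ _ (by decide), t _ hz.pl15 _ _ (by decide), t _ hz.pl35 _ _ (by decide),
      a _ (pl_v1 hz), a _ (pl_v3 hz), a _ (pl_v5 hz), H25.CC]
    ring
  · intro p q hp hq σ e
    simp only [dif_pos hp, dif_pos hq]
    rw [hP p q hp hq σ e]
    exact pieces_eq X hp hq σ e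

/-- The limit of the tori minus the annuli at the theta point, for every wall. -/
theorem lim_val {κ : Fin 3 → Fin 3 → ℝ} (h : Steps κ) {z : H221.Cert H213.sV}
    (hz : H221.CertOK z) (X : H95.Ext) (Θ : Gauge) (hΘ : Asy κ Θ) :
    Tendsto (H221.TA z (H503.loc X Θ H811.bulkSmooth H811.bulkLinear H188.bulkLaw)) (𝓝[>] 0)
      (𝓝 (∑ Q, H573.val z X Q)) := by
  have hw := wtC_of hz
  have hB := H681.braid_sV
  have hD : ∀ v, ∀ b ∈ XX,
      (H503.loc X Θ H811.bulkSmooth H811.bulkLinear H188.bulkLaw).Phi v b =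
        PhiF X Θ (H503.mtV v) b := fun v b hb => H503.loc_Phi X Θ _ _ _ v hb
  have h2t := h.torus X Θ hΘ
  have h2a := h.annulus X Θ hΘ
  have h5t := h.regT X Θ hΘ
  have h5a := h.regA X Θ hΘ
  have t1 := tendsto_TOR' h2t h5t (h.sumT X) hD hw.w13 (i := 0) (j := 1) (by decide)
  have t2 := tendsto_TOR' h2t h5t (h.sumT X) hD hw.w15 (i := 0) (j := 2) (by decide)
  have t3 := tendsto_TOR' h2t h5t (h.sumT X) hD hw.w35 (i := 1) (j := 2) (by decide)
  have a1 := tendsto_ANN' h2a h5a (h.sumA X) hD hw.v1 (i := 0) (z.inv_v1 hB)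
  have a2 := tendsto_ANN' h2a h5a (h.sumA X) hD hw.v3 (i := 1) (z.inv_v3 hB)
  have a3 := tendsto_ANN' h2a h5a (h.sumA X) hD hw.v5 (i := 2) (z.inv_v5 hB)
  have h' := ((t1.add t2).add t3).sub ((a1.add a2).add a3)
  simp only [← Finset.sum_add_distrib, ← Finset.sum_sub_distrib] at h'
  exact h'

/-- The sum of the values of all pieces is zero, for every wall. -/
theorem sum_val_zero (X : H95.Ext) : ∑ Q, H573.val H681.cert X Q = 0 := by
  have hT := lim_val
    (H573.steps_of_pt (fun X _ h => H261.ptT X h) fun X _ h => H261.ptA X h) H221.certOK X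
    H973.gauge0 H803.asy0
  have hN := H503.neg_loc H879.negOf X H973.gauge0 H730.asy1 H811.bulkSmooth H811.bulkLinear
    H188.bulkLaw
  have h0 : Tendsto (H221.TA H681.cert
      (H503.loc X H973.gauge0 H811.bulkSmooth H811.bulkLinear H188.bulkLaw)) (𝓝[>] 0) (𝓝 0) := by
    refine tendsto_const_nhds.congr' ?_
    filter_upwards [Ioc_mem_nhdsGT (zero_lt_one (α := ℝ))] with r hr
    exact (H221.TA_zero H221.annV H681.braid_sV H681.cert _ rfl hN hr).symm
  exact tendsto_nhds_unique hT h0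

/-- **CELL.** The relation for every wall `X` and every invariant function `G` on graphs whose
values on the theta graphs are the sums of the cell integrals of `X`. -/
theorem cell_rel (X : H95.Ext) (G : H93.Gr → ℝ) (hG : H93.Inv G)
    (hP : ∀ (p q : ℕ) (hp : p ≤ q) (hq : q ≤ 6) (σ : Bool → Equiv.Perm (Fin 7)) (e : Bool → Bool),
      G (H93.thE e p q σ) = cellSum X hp hq σ e) :
    ∑ i : H503.Ix, (H503.xa i : ℝ) * G (H503.xh i) = 0 := by
  obtain ⟨hK, h222, h123, h033, h114, h024, h015, h006⟩ := H25.coeff_cert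
  rw [H503.sum_xa]
  refine H93.lim_onX hG (H25.CC H681.cert) _ hK h006 h015 h024 h033 h114 h123 h222 ?_
  have h := sum_valueG H221.certOK H93.valZero H254.valTP H254.valAP hP
  rw [sum_val_zero X] at h
  exact (mul_eq_zero.1 h.symm).resolve_left KL_ne

/-- `h` and `h'` are isomorphic graphs (the legs are fixed). -/
def GI (h h' : H93.Gr) : Prop :=
  ∃ (u : Equiv.Perm (Option (Fin 7))) (ρ : Equiv.Perm ((Fin 3 ⊕ Fin 6) × Bool)),
    (∀ e, (ρ (e, true)).1 = (ρ (e, false)).1) ∧ ∀ y, h' (y.map ρ id) = u (h y)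

theorem GI.refl (h : H93.Gr) : GI h h :=
  ⟨Equiv.refl _, Equiv.refl _, fun _ => rfl, fun y => by simp⟩

theorem GI.symm {h h' : H93.Gr} (H : GI h h') : GI h' h := by
  obtain ⟨u, ρ, h1, h2⟩ := H
  refine ⟨u.symm, ρ.symm, H503.inv_side h1, fun y => ?_⟩
  have h5 := h2 (y.map ρ.symm id)
  rw [Sum.map_map] at h5
  have h6 : y.map (ρ ∘ ρ.symm) (id ∘ id) = y := by
    rcases y with y | y
    · simp
    · rfl
  rw [h6] at h5
  rw [h5, Equiv.symm_apply_apply]

theorem GI.trans {h h' h'' : H93.Gr} (H : GI h h') (H' : GI h' h'') : GI h h'' := by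
  obtain ⟨u, ρ, h1, h2⟩ := H
  obtain ⟨u', ρ', h1', h2'⟩ := H'
  refine ⟨u.trans u', ρ.trans ρ', fun e => ?_, fun y => ?_⟩
  · have h3 : ∀ a s t, (ρ' (a, s)).1 = (ρ' (a, t)).1 := by
      intro a s t
      cases s <;> cases t
      · rfl
      · exact (h1' a).symm
      · exact h1' a
      · rfl
    change (ρ' (ρ (e, true))).1 = (ρ' (ρ (e, false))).1
    have h4 : ρ (e, true) = ((ρ (e, false)).1, (ρ (e, true)).2) := Prod.ext (h1 e) rfl
    rw [h4]
    exact h3 _ _ _
  · have h5 : y.map (ρ.trans ρ') id = (y.map ρ id).map ρ' id := by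
      rcases y with y | y <;> rfl
    rw [h5, h2', h2]
    rfl

/-- The index of a theta graph. -/
structure TI where
  p : ℕ
  q : ℕ
  hp : p ≤ q
  hq : q ≤ 6
  σ : Bool → Equiv.Perm (Fin 7)
  e : Bool → Bool

/-- The graph of an index. -/
def TI.gr (t : TI) : H93.Gr := H93.thE t.e t.p t.q t.σ

/-- The index of the graph `xh i`. -/
def tix (i : H503.Ix) : TI :=
  ⟨(H503.tpq i.2.1).1, (H503.tpq i.2.1).2, (H503.tpq_le _).1, (H503.tpq_le _).2, i.1,
    cond i.2.2 (fun b => b) (fun _ => true)⟩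

theorem tix_gr (i : H503.Ix) : (tix i).gr = H503.xh i := by
  rw [H503.xh, H503.thx_eq]
  rfl

/-- **CELL, second form.** `g t` is the sum of the cell integrals of the theta graph with the index
`t`; invariance is needed only for isomorphisms between theta graphs. -/
theorem cell_rel' (X : H95.Ext) (g : TI → ℝ) (hg : ∀ t, g t = cellSum X t.hp t.hq t.σ t.e)
    (hI : ∀ t t' : TI, GI t.gr t'.gr → g t = g t') :
    ∑ i : H503.Ix, (H503.xa i : ℝ) * g (tix i) = 0 := by
  classical
  let G : H93.Gr → ℝ := fun h => if H : ∃ t : TI, GI t.gr h then g H.choose else 0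
  have hG : ∀ (t : TI) (h : H93.Gr), GI t.gr h → G h = g t := by
    intro t h H
    have H' : ∃ t : TI, GI t.gr h := ⟨t, H⟩
    have h1 : G h = g H'.choose := dif_pos H'
    rw [h1]
    exact hI _ _ (H'.choose_spec.trans H.symm)
  have h0 : ∑ i : H503.Ix, (H503.xa i : ℝ) * g (tix i) =
      ∑ i : H503.Ix, (H503.xa i : ℝ) * G (H503.xh i) := by
    refine Finset.sum_congr rfl fun i _ => ?_
    rw [hG (tix i) (H503.xh i) (by rw [tix_gr]; exact GI.refl _)]
  rw [h0]
  refine cell_rel X G ?_ fun p q hp hq σ e => ?_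
  · intro u ρ h1 h h' h2
    have H : GI h h' := ⟨u, ρ, h1, h2⟩
    by_cases H' : ∃ t : TI, GI t.gr h
    · obtain ⟨t, ht⟩ := H'
      rw [hG t h ht, hG t h' (ht.trans H)]
    · have H'' : ¬ ∃ t : TI, GI t.gr h' := fun ⟨t, ht⟩ => H' ⟨t, ht.trans H.symm⟩
      have e1 : G h = 0 := dif_neg H'
      have e2 : G h' = 0 := dif_neg H''
      rw [e1, e2]
  · exact (hG ⟨p, q, hp, hq, σ, e⟩ _ (GI.refl _)).trans (hg _)

end Vale.Agent.P273SC

end
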